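import Mathlib
import Vale.Agent.Helpers.CayleySSN

set_option autoImplicit false

namespace Vale.Agent.Results.P038.VertexTransitive

open Finset
open Vale.Agent.Helpers.CayleySSN

/-- The automorphism group of the digraph with arc relation `adj`. -/
def autGroup {V : Type*} (adj : V → V → Prop) : Subgroup (Equiv.Perm V) where
  carrier := {φ | ∀ a b, adj (φ a) (φ b) ↔ adj a b}
  mul_mem' := by
    intro φ ψ hφ hψ a b
    show adj (φ (ψ a)) (φ (ψ b)) ↔ adj a b
    rw [hφ, hψ]
  one_mem' := by
    intro a b
    exact Iff.rfl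
  inv_mem' := by
    intro φ hφ a b
    have h := hφ (φ⁻¹ a) (φ⁻¹ b)
    have ea : φ (φ⁻¹ a) = a := by simp
    have eb : φ (φ⁻¹ b) = b := by simp
    rw [ea, eb] at h
    exact h.symm

/-- Seymour's second neighbourhood conjecture holds, at every vertex, for every finite
vertex-transitive oriented graph. -/
theorem result {V : Type*} [Fintype V] (adj : V → V → Prop)
    (hirr : ∀ x, ¬ adj x x) (hasym : ∀ x y, adj x y → ¬ adj y x)
    (htrans : ∀ x y : V, ∃ φ : Equiv.Perm V, (∀ a b, adj (φ a) (φ b) ↔ adj a b) ∧ φ x = y) :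
    ∀ v : V, (N1 adj v).card ≤ (N2 adj v).card := by
  classical
  intro v0
  have : Fintype (autGroup adj) := Fintype.ofFinite _
  set S : Finset (autGroup adj) := univ.filter (fun g => adj v0 (g.1 v0)) with hS
  have hcay : ∀ x y : autGroup adj, (x⁻¹ * y ∈ S) ↔ adj (x.1 v0) (y.1 v0) := by
    intro x y
    have h := x.2 v0 ((x⁻¹ * y).1 v0)
    have e : x.1 ((x⁻¹ * y).1 v0) = y.1 v0 := by
      simp [Subgroup.coe_mul, Equiv.Perm.mul_apply]
    rw [e] at h
    simp only [hS, mem_filter, mem_univ, true_and]
    exact h.symm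
  have h1S : (1 : autGroup adj) ∉ S := by
    simp only [hS, mem_filter, mem_univ, true_and]
    exact hirr v0
  have hinv : ∀ s ∈ S, s⁻¹ ∉ S := by
    intro s hs hs'
    have a1 : adj v0 (s.1 v0) := by
      simpa [hS] using hs
    have a2 : adj (s.1 v0) v0 := by
      have := (hcay s 1).mp (by simpa using hs')
      simpa using this
    exact hasym _ _ a1 a2
  have hmain := (cayley S h1S hinv).2.2 1
  -- fibres of the orbit map all have the same size
  set c : ℕ := (univ.filter (fun g : autGroup adj => g.1 v0 = v0)).card with hc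
  have hcpos : 0 < c := by
    apply Finset.card_pos.mpr
    exact ⟨1, by simp⟩
  have hfib : ∀ X : Finset V,
      (univ.filter (fun g : autGroup adj => g.1 v0 ∈ X)).card = X.card * c := by
    intro X
    rw [Finset.card_eq_sum_card_fiberwise (f := fun g : autGroup adj => g.1 v0) (t := X)
      (by intro g hg; simpa using hg)]
    have : ∀ b ∈ X, ((univ.filter (fun g : autGroup adj => g.1 v0 ∈ X)).filter
        (fun g => g.1 v0 = b)).card = c := by
      intro b hb
      obtain ⟨φ, hφ, hφb⟩ := htrans v0 b
      let gb : autGroup adj := ⟨φ, hφ⟩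
      have : (univ.filter (fun g : autGroup adj => g.1 v0 ∈ X)).filter (fun g => g.1 v0 = b)
          = (univ.filter (fun g : autGroup adj => g.1 v0 = v0)).image (fun g => gb * g) := by
        ext g
        simp only [mem_filter, mem_univ, true_and, mem_image]
        constructor
        · rintro ⟨_, hg⟩
          refine ⟨gb⁻¹ * g, ?_, by group⟩
          have : (gb⁻¹ * g).1 v0 = φ⁻¹ (g.1 v0) := by
            simp [Subgroup.coe_mul, Equiv.Perm.mul_apply, gb]
          rw [this, hg, ← hφb]
          simp
        · rintro ⟨h, hh, rfl⟩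
          have : (gb * h).1 v0 = φ (h.1 v0) := by
            simp [Subgroup.coe_mul, Equiv.Perm.mul_apply, gb]
          rw [this, hh, hφb]
          exact ⟨hb, rfl⟩
      rw [this]
      exact Finset.card_image_of_injective _ (mul_right_injective gb)
    rw [Finset.sum_congr rfl this, Finset.sum_const, smul_eq_mul]
  have e1 : N1 (fun x y : autGroup adj => x⁻¹ * y ∈ S) 1
      = univ.filter (fun g : autGroup adj => g.1 v0 ∈ N1 adj v0) := by
    ext g
    simp only [N1, mem_filter, mem_univ, true_and]
    rw [hcay]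
    simp
  have e2 : N2 (fun x y : autGroup adj => x⁻¹ * y ∈ S) 1
      ⊆ univ.filter (fun g : autGroup adj => g.1 v0 ∈ N2 adj v0) := by
    intro w hw
    simp only [N2, mem_filter, mem_univ, true_and] at hw ⊢
    obtain ⟨_, hnadj, u, hu1, hu2⟩ := hw
    rw [hcay] at hnadj hu1 hu2
    have hu1' : adj v0 (u.1 v0) := by simpa using hu1
    refine ⟨?_, by simpa using hnadj, u.1 v0, hu1', hu2⟩
    intro hwv
    rw [hwv] at hu2
    exact hasym _ _ hu1' hu2
  have h3 : (N1 adj v0).card * c ≤ (N2 adj v0).card * c := by
    rw [← hfib, ← hfib, ← e1]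
    exact hmain.trans (Finset.card_le_card e2)
  exact Nat.le_of_mul_le_mul_right h3 hcpos

end Vale.Agent.Results.P038.VertexTransitive
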